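import Vale.Agent.P064.BoundedDeg

/-!
P064: Q1 for bounded maximum degree.
-/

namespace Vale.Agent.P064.Retired.BoundedDegree

open Vale.Agent.P064

theorem result :
    ∃ C : ℝ, ∀ (n v D : ℕ) (H : SimpleGraph (Fin v)), 2 ≤ n → v ≤ n → H.edgeSet.Nonempty →
      (∀ a, (H.neighborSet a).ncard ≤ D) →
        pFrac n H ≤ C * D * pE n H ∧ pC n H ≤ C * D * Real.log n * pE n H := by
  refine ⟨320 * 216, fun n v D H hn hv hH hD => ?_⟩
  obtain ⟨h1, h2⟩ := bounded_degree hn hv H hH hD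
  refine ⟨h1.trans ?_, h2⟩
  have hP : 0 ≤ pE n H := le_csInf ⟨1, one_mem hv H⟩ fun p hp => hp.1.1
  refine mul_le_mul_of_nonneg_right ?_ hP
  nlinarith [Nat.cast_nonneg (α := ℝ) D]

end Vale.Agent.P064.Retired.BoundedDegree
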