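import Vale.Agent.P064.PowerMain

/-!
P064: Q1 up to a factor `(log n) ^ o(1)` whenever the exponent of `pE` is not just above a rational
with small denominator; this includes every `pE` of order `n ^ (-a)`.
-/

namespace Vale.Agent.P064.Retired.PowerExponent

open Vale.Agent.P064

theorem result :
    (∃ C : ℝ, ∀ (n v E : ℕ) (η K : ℝ) (H : SimpleGraph (Fin v)), 2 ≤ n → v ≤ n →
      H.edgeSet.Nonempty → 2 ≤ E → 0 < η → η ≤ 1 → 1 ≤ K →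
      (∀ e k : ℕ, 1 ≤ e → e < E → k ≤ e + 1 →
        (n : ℝ) ^ k * pE n H ^ e ≤ (n : ℝ) ^ (-η) ∨ 1 ≤ (n : ℝ) ^ k * (K * pE n H) ^ e) →
        pFrac n H ≤ C * K * ((E : ℝ) / η) ^ 8 * Real.log n ^ ((1 : ℝ) / E) * pE n H ∧
          pC n H ≤ C * K * ((E : ℝ) / η) ^ 8 * Real.log n ^ (1 + (1 : ℝ) / E) * pE n H) ∧
    (∀ a ε : ℝ, 0 < ε →
      ∃ δ : ℝ, 0 < δ ∧ ∃ C : ℝ, ∀ (n v : ℕ) (H : SimpleGraph (Fin v)), 3 ≤ n → v ≤ n →
        H.edgeSet.Nonempty → (n : ℝ) ^ (-a) / Real.log n ^ (ε / 2) ≤ pE n H →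
          pE n H ≤ (n : ℝ) ^ (-(a - δ)) →
            pFrac n H ≤ C * Real.log n ^ ε * pE n H ∧
              pC n H ≤ C * Real.log n ^ (1 + ε) * pE n H) ∧
    ∀ a : ℝ, Irrational a → ∀ ε : ℝ, 0 < ε →
      ∃ δ : ℝ, 0 < δ ∧ ∃ C : ℝ, ∀ (n v : ℕ) (H : SimpleGraph (Fin v)), 3 ≤ n → v ≤ n →
        H.edgeSet.Nonempty →
        (n : ℝ) ^ (-(a + δ)) ≤ pE n H → pE n H ≤ (n : ℝ) ^ (-(a - δ)) →
          pFrac n H ≤ C * Real.log n ^ ε * pE n H ∧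
            pC n H ≤ C * Real.log n ^ (1 + ε) * pE n H :=
  ⟨⟨Blk.powC, fun _ _ _ _ _ H hn hv hH hE hη hη1 hK hgap =>
      Blk.power_exponent hn hv H hH hE hη hη1 hK hgap⟩,
    fun a _ hε => Blk.power_left a hε, fun _ ha _ hε => Blk.power_irrational ha hε⟩

end Vale.Agent.P064.Retired.PowerExponent
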