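import Vale.Agent.P064.AllGraphs

/-!
P064: the general bounds `p̃_E = O(p_E (log n)^(1/2))`, `p_c = O(p_E (log n)^(3/2))`, and the
conjectured bound for `p_E ≥ n^(-1 / log log n)`.
-/

namespace Vale.Agent.P064.Retired.ThresholdBounds

open Vale.Agent.P064

theorem range_of_large {n : ℕ} (hn : 2 ≤ n) {x : ℝ}
    (hx : (n : ℝ) ^ (-1 / Real.log (Real.log n)) ≤ x) :
    Real.log n ≤ n * x ^ ⌊Real.log (Real.log n) / 2⌋₊ := by
  have hn0 : (0 : ℝ) < n := by exact_mod_cast (by omega : 0 < n)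
  set L := Real.log (Real.log n) with hL
  set t := ⌊L / 2⌋₊ with ht
  rcases Nat.eq_zero_or_pos t with h0 | h0
  · rw [h0, pow_zero, mul_one]
    linarith [Real.log_le_sub_one_of_pos hn0]
  have hL2 : (1 : ℝ) ≤ L / 2 := Nat.one_le_floor_iff _ |>.1 h0
  have htL : (t : ℝ) ≤ L / 2 := Nat.floor_le (by linarith)
  have h1 : ((n : ℝ) ^ (-1 / L)) ^ t ≤ x ^ t := pow_le_pow_left₀ (Real.rpow_nonneg hn0.le _) hx t
  refine le_trans ?_ (mul_le_mul_of_nonneg_left h1 hn0.le)
  rw [← Real.rpow_natCast (_ ^ (-1 / L)) t, ← Real.rpow_mul hn0.le]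
  calc Real.log n ≤ (n : ℝ) ^ ((1 : ℝ) / 2) := by
        rw [← Real.sqrt_eq_rpow]
        have hs := Real.sqrt_pos.2 hn0
        have h2 := Real.log_le_sub_one_of_pos (show 0 < Real.sqrt n / 2 by positivity)
        rw [Real.log_div hs.ne' two_ne_zero, Real.log_sqrt hn0.le] at h2
        have := Real.log_two_lt_d9
        linarith
    _ = (n : ℝ) * (n : ℝ) ^ ((-1 : ℝ) / 2) := by
        conv_rhs => arg 1; rw [← Real.rpow_one (n : ℝ)]
        rw [← Real.rpow_add hn0]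
        norm_num
    _ ≤ _ := by
        refine mul_le_mul_of_nonneg_left (Real.rpow_le_rpow_of_exponent_le
          (by exact_mod_cast (by omega : 1 ≤ n)) ?_) hn0.le
        rw [div_mul_eq_mul_div, le_div_iff₀ (by linarith)]
        linarith

theorem result :
    ∃ C : ℝ, ∀ (n v : ℕ) (H : SimpleGraph (Fin v)), 2 ≤ n → v ≤ n → H.edgeSet.Nonempty →
      (pFrac n H ≤ C * Real.log n ^ ((1 : ℝ) / 2) * pE n H ∧
        pC n H ≤ C * Real.log n ^ ((3 : ℝ) / 2) * pE n H) ∧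
      ((n : ℝ) ^ (-1 / Real.log (Real.log n)) ≤ pE n H →
        pFrac n H ≤ C * pE n H ∧ pC n H ≤ C * Real.log n * pE n H) ∧
      (∀ t : ℕ, Real.log n ≤ n * pE n H ^ t →
        pFrac n H ≤ C * Real.log n ^ ((1 : ℝ) / (t + 1)) * pE n H ∧
        pC n H ≤ C * Real.log n ^ (1 + (1 : ℝ) / (t + 1)) * pE n H) := by
  have hD : (0 : ℝ) ≤ denseC := by rw [denseC]; norm_num
  have hE : (1 : ℝ) ≤ Real.exp 2 := Real.one_le_exp (by norm_num)
  have hD' : denseC ≤ denseC * Real.exp 2 := le_mul_of_one_le_right hD hE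
  have hA : (0 : ℝ) ≤ allC := by rw [allC]; norm_num [Blk.powC, denseC]
  refine ⟨allC + 320 * denseC * Real.exp 2, fun n v H hn hv hH => ?_⟩
  set C := allC + 320 * denseC * Real.exp 2 with hC
  have hP : 0 ≤ pE n H := le_csInf ⟨1, one_mem hv H⟩ fun p hp => hp.1.1
  have hl : 0 ≤ Real.log n := Real.log_natCast_nonneg n
  refine ⟨⟨?_, ?_⟩, fun hbig => ?_, fun t ht => ?_⟩
  · refine (half_loss hn hv H hH).1.trans ?_
    refine mul_le_mul_of_nonneg_right (mul_le_mul_of_nonneg_right ?_ (Real.rpow_nonneg hl _)) hP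
    rw [hC]; linarith
  · refine (half_loss hn hv H hH).2.trans ?_
    refine mul_le_mul_of_nonneg_right (mul_le_mul_of_nonneg_right ?_ (Real.rpow_nonneg hl _)) hP
    rw [hC]; linarith
  · obtain ⟨h1, h2⟩ := no_loss (K := 2) hn hv H hH
      (t := ⌊Real.log (Real.log n) / 2⌋₊) (by
        have := Nat.lt_floor_add_one (Real.log (Real.log n) / 2)
        linarith) (range_of_large hn hbig)
    refine ⟨h1.trans (mul_le_mul_of_nonneg_right ?_ hP),
      h2.trans (mul_le_mul_of_nonneg_right (mul_le_mul_of_nonneg_right ?_ hl) hP)⟩ <;>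
      rw [hC] <;> linarith
  · obtain ⟨h1, h2⟩ := pFrac_dense hn hv H hH ht
    refine ⟨h1.trans (mul_le_mul_of_nonneg_right (mul_le_mul_of_nonneg_right ?_
        (Real.rpow_nonneg hl _)) hP),
      h2.trans (mul_le_mul_of_nonneg_right (mul_le_mul_of_nonneg_right ?_
        (Real.rpow_nonneg hl _)) hP)⟩ <;>
      rw [hC] <;> linarith

end Vale.Agent.P064.Retired.ThresholdBounds
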